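import Vale.Agent.P273.D14.H743.FDef

/-!
The local identities behind the Getzler relation for the state sum: integration by parts for `La`
and `δ`, and the three identities for the pairs (cycle, cycle), (cycle, leaf), (leaf, leaf).
-/

namespace Vale.Agent.P273.D14.H129

open Vale.Agent.P273.D14.FS MvPolynomial
open scoped Nat

noncomputable section

/-- The variable of a colour. -/
abbrev xc (c : Fin 3) : R := X c.castSucc

lemma δ_X3 : δ (X 3) = 0 := by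
  simp [δ, mkDerivation_X]

lemma δ_xc (c : Fin 3) : δ (xc c) = - xc c ^ 2 := by
  fin_cases c <;> simp [δ, mkDerivation_X, xc]

lemma δ_xc_pow (c : Fin 3) (N : ℕ) : δ (xc c ^ N) = - (N : ℚ) • xc c ^ (N + 1) := by
  rw [Derivation.leibniz_pow, δ_xc]
  rcases N with _ | N
  · simp
  · rw [Nat.add_sub_cancel, neg_smul, ← Nat.cast_smul_eq_nsmul ℚ, smul_eq_mul, mul_neg, smul_neg,
      ← pow_add]

/-- Integration by parts. -/
theorem la_parts (hδ : ∀ p, La (δ p) = 0) (c : Fin 3) (N m : ℕ) (Q : R) :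
    La (xc c ^ N * δ^[m] Q) = (N.ascFactorial m : ℚ) * La (xc c ^ (N + m) * Q) := by
  induction m generalizing N Q with
  | zero => simp
  | succ m ih =>
    rw [Function.iterate_succ_apply']
    have h : xc c ^ N * δ (δ^[m] Q) = δ (xc c ^ N * δ^[m] Q) +
        (N : ℚ) • (xc c ^ (N + 1) * δ^[m] Q) := by
      rw [Derivation.leibniz, δ_xc_pow, smul_eq_mul, smul_eq_mul, neg_smul, mul_neg,
        mul_smul_comm, mul_comm (δ^[m] Q)]
      abel
    rw [h, map_add, hδ, zero_add, map_smul, smul_eq_mul, ih, ← mul_assoc]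
    have h2 : (N : ℚ) * ((N + 1).ascFactorial m : ℚ) = (N.ascFactorial (m + 1) : ℚ) := by
      rw [Nat.ascFactorial_succ]
      exact_mod_cast Nat.succ_ascFactorial N m
    rw [h2, Nat.add_right_comm N 1 m, Nat.add_assoc N m 1]

/-- `La` on monomials. -/
lemma La_mon (q : ℚ) (i j k l : ℕ) : La (C q * (X 0 ^ i * X 1 ^ j * X 2 ^ k * X 3 ^ l)) =
    q * if l = 2 then th1 i j k else 0 := by
  have h : C q * (X 0 ^ i * X 1 ^ j * X 2 ^ k * X 3 ^ l) =
      (monomial (Finsupp.single 0 i + Finsupp.single 1 j + Finsupp.single 2 k +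
        Finsupp.single 3 l) q : R) := by
    simp only [X_pow_eq_monomial, monomial_mul, C_mul_monomial, mul_one]
  rw [h, La_monomial]
  simp

section

variable (x y z : R)

/-- Two half-edges of each of the colours of `x` and `y`. -/
def w4 : R := 2 * X 3 ^ 2 * x ^ 2 * y ^ 2 * z

/-- One half-edge of each colour. -/
def w3 : R := X 3 * x * y * z

/-- The polynomial for two half-edges of the cycle. -/
def Q1 : R := 2 * x * (w4 x y z + w4 x z y) - 2 * (y * w4 x y z + z * w4 x z y) + 8 * w3 x y z ^ 2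

/-- The polynomial for a half-edge of the cycle and a leaf. -/
def Q2 : R := x * δ (w4 x y z + w4 x z y) - 2 * (y * δ (w4 x y z) + z * δ (w4 x z y)) -
  4 * (y ^ 2 * w4 x y z + z ^ 2 * w4 x z y) + 4 * (w3 x y z * δ (w3 x y z))

/-- The polynomial for two leaves. -/
def Q3 : R := - 4 * x ^ 2 * δ (w4 x y z + w4 x z y) - 4 * x ^ 3 * (w4 x y z + w4 x z y) -
  2 * (y * δ (δ (w4 x y z)) + z * δ (δ (w4 x z y))) -
  4 * (y ^ 3 * w4 x y z + z ^ 3 * w4 x z y) - 8 * (w3 x y z * δ (δ (w3 x y z))) -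
  8 * (y ^ 2 * δ (w4 x y z) + z ^ 2 * δ (w4 x z y)) + 16 * δ (w3 x y z) ^ 2

variable {x y z}

lemma δ_w3 (hx : δ x = - x ^ 2) (hy : δ y = - y ^ 2) (hz : δ z = - z ^ 2) :
    δ (w3 x y z) = - (x + y + z) * w3 x y z := by
  unfold w3
  simp only [Derivation.leibniz, δ_X3, hx, hy, hz, smul_eq_mul]
  ring

lemma δ_two : δ (2 : R) = 0 := by
  have : (2 : R) = algebraMap ℚ R 2 := (map_ofNat (algebraMap ℚ R) 2).symm
  rw [this, Derivation.map_algebraMap]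

lemma δ_w4 (hx : δ x = - x ^ 2) (hy : δ y = - y ^ 2) (hz : δ z = - z ^ 2) :
    δ (w4 x y z) = - (2 * x + 2 * y + z) * w4 x y z := by
  unfold w4
  simp only [Derivation.leibniz, Derivation.leibniz_pow, δ_X3, hx, hy, hz, smul_eq_mul, δ_two,
    nsmul_eq_mul]
  push_cast
  ring

lemma δ_δ_w3 (hx : δ x = - x ^ 2) (hy : δ y = - y ^ 2) (hz : δ z = - z ^ 2) :
    δ (δ (w3 x y z)) = (x ^ 2 + y ^ 2 + z ^ 2 + (x + y + z) ^ 2) * w3 x y z := by
  rw [δ_w3 hx hy hz, Derivation.leibniz, δ_w3 hx hy hz]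
  simp only [map_neg, map_add, hx, hy, hz, smul_eq_mul]
  ring

lemma δ_δ_w4 (hx : δ x = - x ^ 2) (hy : δ y = - y ^ 2) (hz : δ z = - z ^ 2) :
    δ (δ (w4 x y z)) = (2 * x ^ 2 + 2 * y ^ 2 + z ^ 2 + (2 * x + 2 * y + z) ^ 2) * w4 x y z := by
  rw [δ_w4 hx hy hz, Derivation.leibniz, δ_w4 hx hy hz]
  simp only [map_neg, map_add, Derivation.leibniz, δ_two, hx, hy, hz, smul_eq_mul]
  ring

lemma Q2_eq (hx : δ x = - x ^ 2) (hy : δ y = - y ^ 2) (hz : δ z = - z ^ 2) :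
    Q2 x y z = - (x * Q1 x y z) := by
  rw [Q2, Q1, map_add, δ_w4 hx hy hz, δ_w4 hx hz hy, δ_w3 hx hy hz]
  simp only [w3, w4]
  ring

lemma Q3_eq (hx : δ x = - x ^ 2) (hy : δ y = - y ^ 2) (hz : δ z = - z ^ 2) :
    Q3 x y z = 2 * (x ^ 2 * Q1 x y z) := by
  rw [Q3, Q1, map_add, δ_δ_w4 hx hy hz, δ_δ_w4 hx hz hy, δ_δ_w3 hx hy hz,
    δ_w4 hx hy hz, δ_w4 hx hz hy, δ_w3 hx hy hz]
  simp only [w3, w4]
  ring

lemma Q1_expand : x ^ 6 * Q1 x y z =
    C 4 * (x ^ 9 * y ^ 2 * z ^ 1 * X 3 ^ 2) + C 4 * (x ^ 9 * y ^ 1 * z ^ 2 * X 3 ^ 2) +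
    C (-4) * (x ^ 8 * y ^ 3 * z ^ 1 * X 3 ^ 2) + C (-4) * (x ^ 8 * y ^ 1 * z ^ 3 * X 3 ^ 2) +
    C 8 * (x ^ 8 * y ^ 2 * z ^ 2 * X 3 ^ 2) := by
  simp only [Q1, w3, w4, C_neg, map_ofNat]
  ring

end

lemma la_Q1_0 : La (X 0 ^ 6 * Q1 (X 0) (X 1) (X 2)) = 0 := by
  rw [Q1_expand]
  simp only [map_add, La_mon]
  norm_num [th1, th3, cM, tau, Finset.sum_range_succ, Nat.choose, Nat.factorial]

lemma la_Q1_1 : La (X 1 ^ 6 * Q1 (X 1) (X 0) (X 2)) = 0 := by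
  rw [Q1_expand]
  have h : ∀ i j k : ℕ, (X 1 ^ i * X 0 ^ j * X 2 ^ k * X 3 ^ 2 : R) =
      X 0 ^ j * X 1 ^ i * X 2 ^ k * X 3 ^ 2 := fun i j k => by ring
  simp only [h, map_add, La_mon]
  norm_num [th1, th3, cM, tau, Finset.sum_range_succ, Nat.choose, Nat.factorial]

lemma la_Q1_2 : La (X 2 ^ 6 * Q1 (X 2) (X 0) (X 1)) = 0 := by
  rw [Q1_expand]
  have h : ∀ i j k : ℕ, (X 2 ^ i * X 0 ^ j * X 1 ^ k * X 3 ^ 2 : R) =
      X 0 ^ j * X 1 ^ k * X 2 ^ i * X 3 ^ 2 := fun i j k => by ring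
  simp only [h, map_add, La_mon]
  norm_num [th1, th3, cM, tau, Finset.sum_range_succ, Nat.choose, Nat.factorial]

/-- `Q1` is symmetric in its last two arguments. -/
lemma Q1_comm (x y z : R) : Q1 x y z = Q1 x z y := by
  simp only [Q1, w3, w4]
  ring

/-- The first identity, for three different colours. -/
theorem la_Q1 (c a b : Fin 3) (hca : c ≠ a) (hcb : c ≠ b) (hab : a ≠ b) :
    La (xc c ^ 6 * Q1 (xc c) (xc a) (xc b)) = 0 := by
  fin_cases c <;> fin_cases a <;> fin_cases b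
  all_goals first | exact absurd rfl hca | exact absurd rfl hcb | exact absurd rfl hab | skip
  · exact la_Q1_0
  · rw [Q1_comm]; exact la_Q1_0
  · exact la_Q1_1
  · rw [Q1_comm]; exact la_Q1_1
  · exact la_Q1_2
  · rw [Q1_comm]; exact la_Q1_2

/-- (cycle, cycle), any number of leaves. -/
theorem la_gz1 (hδ : ∀ p, La (δ p) = 0) {c a b : Fin 3} (hca : c ≠ a) (hcb : c ≠ b) (hab : a ≠ b)
    {N m : ℕ} (hN : N + m = 6) : La (xc c ^ N * δ^[m] (Q1 (xc c) (xc a) (xc b))) = 0 := by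
  rw [la_parts hδ, hN, la_Q1 c a b hca hcb hab, mul_zero]

/-- (cycle, leaf), any number of further leaves. -/
theorem la_gz2 (hδ : ∀ p, La (δ p) = 0) {c a b : Fin 3} (hca : c ≠ a) (hcb : c ≠ b) (hab : a ≠ b)
    {N m : ℕ} (hN : N + m = 5) : La (xc c ^ N * δ^[m] (Q2 (xc c) (xc a) (xc b))) = 0 := by
  have h : xc c ^ 5 * - (xc c * Q1 (xc c) (xc a) (xc b)) =
    - (xc c ^ 6 * Q1 (xc c) (xc a) (xc b)) := by ring
  rw [la_parts hδ, hN, Q2_eq (δ_xc c) (δ_xc a) (δ_xc b), h, map_neg, la_Q1 c a b hca hcb hab,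
    neg_zero, mul_zero]

/-- (leaf, leaf), any number of further leaves. -/
theorem la_gz3 (hδ : ∀ p, La (δ p) = 0) {c a b : Fin 3} (hca : c ≠ a) (hcb : c ≠ b) (hab : a ≠ b)
    {N m : ℕ} (hN : N + m = 4) : La (xc c ^ N * δ^[m] (Q3 (xc c) (xc a) (xc b))) = 0 := by
  have h : xc c ^ 4 * (2 * (xc c ^ 2 * Q1 (xc c) (xc a) (xc b))) =
    xc c ^ 6 * Q1 (xc c) (xc a) (xc b) + xc c ^ 6 * Q1 (xc c) (xc a) (xc b) := by ring
  rw [la_parts hδ, hN, Q3_eq (δ_xc c) (δ_xc a) (δ_xc b), h, map_add, la_Q1 c a b hca hcb hab,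
    add_zero, mul_zero]

end

end Vale.Agent.P273.D14.H129
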