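import Vale.Agent.P273.CDefs

/-!
The identity of subset sums behind the relations of degree two in genus one.
-/

namespace Vale.Agent.P273.D14.H129

open Finset

lemma sum_mem_ite {H : Type} [Fintype H] [DecidableEq H] (S : Finset H) (a b : ℚ) :
    ∑ q : H, (if q ∈ S then a else b) = S.card * a + Sᶜ.card * b := by
  rw [Finset.sum_ite, Finset.sum_const, Finset.sum_const, nsmul_eq_mul, nsmul_eq_mul]
  congr 2
  · congr 2
    ext x
    simp
  · congr 2
    ext x
    simp

lemma card_add {H : Type} [Fintype H] [DecidableEq H] (S : Finset H) :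
    (Fintype.card H : ℚ) = S.card + Sᶜ.card := by
  have := Finset.card_add_card_compl S
  exact_mod_cast this.symm

/-- The summand of the Getzler relation. -/
def gz {H : Type} [DecidableEq H] (D L : Finset H → ℚ) (p q : H) (S : Finset H) : ℚ :=
  if p ∈ S then (if q ∈ S then - D S else L S + 2 * D S)
    else (if q ∈ S then L S + 2 * D S else - L S - D S)

theorem r2_identity {H : Type} [Fintype H] [DecidableEq H] (D L : Finset H → ℚ)
    (hs : ∑ S : Finset H, (L S + D S) = 0)
    (hG : ∀ p q : H, p ≠ q → ∑ S : Finset H,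
      (if p ∈ S then (if q ∈ S then - D S else L S + 2 * D S)
        else (if q ∈ S then L S + 2 * D S else - L S - D S)) = 0)
    (T : Finset H) (j : ℕ) (hTj : T.card + j = 0 ∨ T.card + j = 2) :
    ((Fintype.card H + 4).ascFactorial j : ℚ) * ∑ S : Finset H, D S
     - 6 * ∑ S : Finset H, ∑ k ∈ range (j+1), (j.choose k : ℚ) * (-1)^((S ∩ T).card + k) *
        ((S.card + 2).ascFactorial k * (Sᶜ.card + 2).ascFactorial (j-k) : ℕ) * D S
     + ∑ S : Finset H, ∑ k ∈ range (j+1), (j.choose k : ℚ) * (-1)^((S ∩ T).card + k) *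
        (2 * ((S ∩ T).card + k) - 5) *
        ((S.card + 3).ascFactorial k * (Sᶜ.card + 1).ascFactorial (j-k) : ℕ) * L S = 0 := by
  have hG' : ∀ p q : H, p ≠ q → ∑ S : Finset H, gz D L p q S = 0 := hG
  rw [Finset.mul_sum, Finset.mul_sum, ← Finset.sum_sub_distrib, ← Finset.sum_add_distrib]
  have hj : j = 0 ∨ j = 1 ∨ j = 2 := by omega
  rcases hj with rfl | rfl | rfl
  · rcases hTj with h0 | h2
    · -- T empty
      have hT : T = ∅ := Finset.card_eq_zero.1 (by omega)
      subst hT
      have : ∀ S : Finset H, ((Fintype.card H + 4).ascFactorial 0 : ℚ) * D S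
          - 6 * ∑ k ∈ range (0+1), ((0 : ℕ).choose k : ℚ) * (-1)^((S ∩ ∅).card + k) *
            ((S.card + 2).ascFactorial k * (Sᶜ.card + 2).ascFactorial (0-k) : ℕ) * D S
          + ∑ k ∈ range (0+1), ((0 : ℕ).choose k : ℚ) * (-1)^((S ∩ ∅).card + k) *
            (2 * ((S ∩ ∅).card + k) - 5) *
            ((S.card + 3).ascFactorial k * (Sᶜ.card + 1).ascFactorial (0-k) : ℕ) * L S =
          (-5) * (L S + D S) := by
        intro S
        simp
        ring
      rw [Finset.sum_congr rfl fun S _ => this S, ← Finset.mul_sum, hs, mul_zero]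
    · obtain ⟨p, q, hpq, rfl⟩ := Finset.card_eq_two.1 (show T.card = 2 by omega)
      have : ∀ S : Finset H, ((Fintype.card H + 4).ascFactorial 0 : ℚ) * D S
          - 6 * ∑ k ∈ range (0+1), ((0 : ℕ).choose k : ℚ) * (-1)^((S ∩ {p, q}).card + k) *
            ((S.card + 2).ascFactorial k * (Sᶜ.card + 2).ascFactorial (0-k) : ℕ) * D S
          + ∑ k ∈ range (0+1), ((0 : ℕ).choose k : ℚ) * (-1)^((S ∩ {p, q}).card + k) *
            (2 * ((S ∩ {p, q}).card + k) - 5) *
            ((S.card + 3).ascFactorial k * (Sᶜ.card + 1).ascFactorial (0-k) : ℕ) * L S =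
          4 * gz D L p q S - (L S + D S) := by
        intro S
        have hc : (S ∩ {p, q}).card = (if p ∈ S then 1 else 0) + (if q ∈ S then 1 else 0) := by
          rw [Finset.inter_comm, ← Finset.filter_mem_eq_inter, Finset.card_filter,
            Finset.sum_pair hpq]
        simp only [hc, gz, zero_add, Finset.sum_range_one, Nat.choose_zero_right,
          Nat.ascFactorial_zero, Nat.cast_one, Nat.sub_zero, mul_one, Nat.cast_zero, add_zero,
          one_mul]
        by_cases h1 : p ∈ S <;> by_cases h2 : q ∈ S <;> simp [h1, h2] <;> ring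
      rw [Finset.sum_congr rfl fun S _ => this S, Finset.sum_sub_distrib, ← Finset.mul_sum, hs,
        hG' p q hpq, mul_zero, sub_zero]
  · -- j = 1
    obtain ⟨h, rfl⟩ := Finset.card_eq_one.1 (show T.card = 1 by omega)
    have : ∀ S : Finset H, ((Fintype.card H + 4).ascFactorial 1 : ℚ) * D S
          - 6 * ∑ k ∈ range (1+1), ((1 : ℕ).choose k : ℚ) * (-1)^((S ∩ {h}).card + k) *
            ((S.card + 2).ascFactorial k * (Sᶜ.card + 2).ascFactorial (1-k) : ℕ) * D S
          + ∑ k ∈ range (1+1), ((1 : ℕ).choose k : ℚ) * (-1)^((S ∩ {h}).card + k) *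
            (2 * ((S ∩ {h}).card + k) - 5) *
            ((S.card + 3).ascFactorial k * (Sᶜ.card + 1).ascFactorial (1-k) : ℕ) * L S =
          4 * ∑ q ∈ univ.erase h, gz D L h q S - Fintype.card H * (L S + D S) := by
      intro S
      have hc : (S ∩ {h}).card = (if h ∈ S then 1 else 0) := by
        rw [Finset.inter_comm, ← Finset.filter_mem_eq_inter, Finset.card_filter,
          Finset.sum_singleton]
      have h3 : ∑ q ∈ univ.erase h, gz D L h q S = ∑ q, gz D L h q S - gz D L h h S := by
        rw [← Finset.add_sum_erase univ (fun q => gz D L h q S) (Finset.mem_univ h)]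
        ring
      have e0 : ∀ n : ℕ, n.ascFactorial 1 = n := fun n => by
        rw [Nat.ascFactorial_succ, Nat.ascFactorial_zero]; ring
      rw [h3, hc]
      simp only [Finset.sum_range_succ, Finset.sum_range_zero, zero_add, e0, Nat.ascFactorial_zero, Nat.choose_zero_right, Nat.choose_self, Nat.cast_one,
        Nat.sub_zero, Nat.sub_self, mul_one, one_mul, Nat.cast_zero, add_zero]
      by_cases h1 : h ∈ S
      · simp only [gz, h1, if_true]
        rw [sum_mem_ite]
        push_cast
        rw [card_add S]
        ring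
      · simp only [gz, h1, if_false]
        rw [sum_mem_ite]
        push_cast
        rw [card_add S]
        ring
    rw [Finset.sum_congr rfl fun S _ => this S, Finset.sum_sub_distrib, ← Finset.mul_sum,
      ← Finset.mul_sum, hs, mul_zero, sub_zero, Finset.sum_comm, Finset.sum_eq_zero, mul_zero]
    intro q hq
    exact hG' h q (Finset.ne_of_mem_erase hq).symm
  · -- j = 2
    have hT : T = ∅ := Finset.card_eq_zero.1 (by omega)
    subst hT
    have : ∀ S : Finset H, ((Fintype.card H + 4).ascFactorial 2 : ℚ) * D S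
          - 6 * ∑ k ∈ range (2+1), ((2 : ℕ).choose k : ℚ) * (-1)^((S ∩ ∅).card + k) *
            ((S.card + 2).ascFactorial k * (Sᶜ.card + 2).ascFactorial (2-k) : ℕ) * D S
          + ∑ k ∈ range (2+1), ((2 : ℕ).choose k : ℚ) * (-1)^((S ∩ ∅).card + k) *
            (2 * ((S ∩ ∅).card + k) - 5) *
            ((S.card + 3).ascFactorial k * (Sᶜ.card + 1).ascFactorial (2-k) : ℕ) * L S =
          4 * ∑ p : H, ∑ q ∈ univ.erase p, gz D L p q S -
            ((Fintype.card H : ℚ) ^ 2 + Fintype.card H + 4) * (L S + D S) := by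
      intro S
      have h3 : ∀ p : H, ∑ q ∈ univ.erase p, gz D L p q S = if p ∈ S then
          (S.card * (- D S) + Sᶜ.card * (L S + 2 * D S) - (- D S)) else
          (S.card * (L S + 2 * D S) + Sᶜ.card * (- L S - D S) - (- L S - D S)) := by
        intro p
        have h4 : ∑ q ∈ univ.erase p, gz D L p q S = ∑ q, gz D L p q S - gz D L p p S := by
          rw [← Finset.add_sum_erase univ (fun q => gz D L p q S) (Finset.mem_univ p)]
          ring
        rw [h4]
        by_cases h1 : p ∈ S
        · simp only [gz, h1, if_true]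
          rw [sum_mem_ite]
        · simp only [gz, h1, if_false]
          rw [sum_mem_ite]
      have e0 : ∀ n : ℕ, n.ascFactorial 1 = n := fun n => by
        rw [Nat.ascFactorial_succ, Nat.ascFactorial_zero]; ring
      have e1 : ∀ n : ℕ, n.ascFactorial 2 = n * (n + 1) := fun n => by
        rw [Nat.ascFactorial_succ, e0]; ring
      rw [Finset.sum_congr rfl fun p _ => h3 p, sum_mem_ite]
      have e2 : (2 : ℕ).choose 1 = 2 := rfl
      simp only [Finset.sum_range_succ, Finset.sum_range_zero, Finset.inter_empty, Finset.card_empty, e0, e1, e2, Nat.ascFactorial_zero,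
        Nat.choose_zero_right, Nat.choose_self, Nat.cast_one,
        Nat.sub_zero, Nat.sub_self, mul_one, one_mul, Nat.cast_zero, add_zero, zero_add]
      push_cast
      rw [card_add S]
      ring
    rw [Finset.sum_congr rfl fun S _ => this S, Finset.sum_sub_distrib, ← Finset.mul_sum,
      ← Finset.mul_sum, hs, mul_zero, sub_zero, Finset.sum_comm, Finset.sum_eq_zero, mul_zero]
    intro p _
    rw [Finset.sum_comm]
    apply Finset.sum_eq_zero
    intro q hq
    exact hG' p q (Finset.ne_of_mem_erase hq).symm

end Vale.Agent.P273.D14.H129
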